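import Vale.Agent.P167.N.Kit
import Vale.Agent.P167.H945.Q.TLoc

/-! generated from Vale.Agent.P167.H945.Q.TLoc (q < 1 port) -/

set_option autoImplicit false

namespace Vale.Agent.P167.N.H945.Q

open Vale.Agent.P167.H945.Q Vale.Agent.P167.H945

open Finset MeasureTheory

open Vale.Agent.P167.BR

open Vale.Agent.P167.XDL (bS mem_bS)

open Vale.Agent.P167.FK

open Vale.Agent.P167.FKA (Loc Ind)

open Vale.Agent.P167.H199 (cang strand ret Returns mem_strand ret_min ret_le)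

open Vale.Agent.P167.H825.Q (Row)

open Vale.Agent.P167.H685 (nx_loc)

open Vale.Agent.P167.H680.T (sq_mem mem_bS_sq trans_mem ax)

variable {I J : Finset (ℤ × ℤ)} {A A' : Finset Ed} {B : Finset (ℤ × ℤ)} {ω ω' : Cfg} {θ : ℝ}

theorem natw_pos (h0 : 0 < θ) (h1 : Ang θ) (t τ τ' : ℝ) : 0 < natw θ t τ τ' := by
  have h1_lt := h1.lt
  have hp := Real.pi_pos
  unfold natw
  split_ifs
  · exact Real.sin_pos_of_pos_of_lt_pi (by linarith) (by linarith)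
  · exact Real.sin_pos_of_pos_of_lt_pi h0 (by linarith)

theorem relw_nonneg (h0 : 0 < θ) (h1 : Ang θ) (t d τ τ' : ℝ) :
    0 ≤ relw θ t d τ τ' := div_nonneg (abs_nonneg _) (natw_pos h0 h1 _ _ _).le

theorem Tc_nonneg (h0 : 0 < θ) (h1 : Ang θ) (I : Finset (ℤ × ℤ)) (r : Row) (i : Fin 3)
    (R : ℤ) (ω : Cfg) : 0 ≤ Tc θ I r i R ω := by
  have h1_lt := h1.lt
  have key : ∀ {p : SP}, 0 ≤ p.w → 0 ≤ p.w' → 0 ≤ p.T I R ω := fun a b => SP.T_nonneg a b I R ω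
  unfold Tc
  split_ifs
  · exact key (relw_nonneg h0 h1 _ _ _ _) (relw_nonneg h0 h1 _ _ _ _)
  · exact key (relw_nonneg h0 h1 _ _ _ _) (relw_nonneg h0 h1 _ _ _ _)
  · exact zero_le_one
  · exact mul_nonneg (key (relw_nonneg h0 h1 _ _ _ _) (relw_nonneg h0 h1 _ _ _ _))
      (key (relw_nonneg h0 h1 _ _ _ _) (relw_nonneg h0 h1 _ _ _ _))

theorem TT_nonneg (h0 : 0 < θ) (h1 : Ang θ) (I : Finset (ℤ × ℤ)) (r : Row)
    (R : ℤ) (ω : Cfg) : 0 ≤ TT θ I r R ω := by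
  have h1_lt := h1.lt
  rw [TT_eq]
  exact prod_nonneg fun i _ => Tc_nonneg h0 h1 I r i R ω

end Vale.Agent.P167.N.H945.Q
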