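import Vale.Agent.P167.N.Kit
import Vale.Agent.P167.N.H506.Q.Tr
import Vale.Agent.P167.N.H945.Q.TLoc
import Vale.Agent.P167.H945.Q.HLift

/-! generated from Vale.Agent.P167.H945.Q.HLift (q < 1 port) -/

set_option autoImplicit false

namespace Vale.Agent.P167.N.H945.Q

open Vale.Agent.P167.H945.Q Vale.Agent.P167.H945

open Finset MeasureTheory Filter

open Vale.Agent.P167.BR

open Vale.Agent.P167.XDL (bS mem_bS)

open Vale.Agent.P167.FK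

open Vale.Agent.P167.FKA (Loc Ind Loc.ind Ex_mono Ex_congr)

open Vale.Agent.P167.H259 (f_markov)

open Vale.Agent.P167.H519 (IsLim)

open Vale.Agent.P167.H825 (dv epos)

open Vale.Agent.P167.H825.Q (Row)

open Vale.Agent.P167.H680.T (sq_mem sq_inj mem_I rowC uI mem_uI adm_sepd)

open Vale.Agent.P167.H506.Q (EF fz LF EF_tr EF_le EF_lin)

section lift

variable {Q : ℝ} {K D D1 : Finset (ℤ × ℤ)} {σ η : Cfg} {F1 F2 G : Cfg → ℝ} {C : ℝ}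
  {P : Measure Cfg}

/-- **Lifting** to the expectations given the frozen squares. -/
theorem EF_lift (hQ : Kit Q) (hP : IsLim Q P) (hg : ∀ᵐ ω ∂P, Good ω) (hDK : Disjoint D1 K)
    (hG0 : ∀ ω, 0 ≤ G ω) (hG : Ind D1 G) (hGl : LF G) (h1 : LF F1) (h2 : LF F2)
    (h : ∀ ζ, Good ζ → (∀ v ∈ K, ζ v = σ v) → Ex Q D1 ζ F1 ≤ C * Ex Q D1 ζ F2) :
    EF P K σ (fun ω => G ω * F1 ω) ≤ C * EF P K σ (fun ω => G ω * F2 ω) := by
  have hQ_pos := hQ.pos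
  obtain ⟨R₀, -, hR₀⟩ := H519.exists_Bq D1
  have := Vale.Agent.P167.N.H506.Q.EF_tr hQ hP hg K σ (hGl.mul h1) (hGl.mul h2) (a := 1) (b := C) R₀
    fun D η hD _ hη hk => by
      rw [one_mul]
      exact lift_fin (by linarith) (K := K) (σ := σ) (fun v hv => mem_sdiff.2
        ⟨hD (hR₀ hv), Finset.disjoint_left.1 hDK hv⟩) disjoint_sdiff_self_left hη hk hG0 hG h
  rwa [one_mul] at this

end lift

variable {θ κ R B : ℝ} {n : ℕ} {ι : Type} [Fintype ι] {r : ι → Row} {c : Ed → ℝ}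
  {P : Measure Cfg}

theorem PT_nonneg (h0 : 0 < θ) (h1 : Ang θ) (r : ι → Row) (ρ : ℤ) (ω : Cfg) :
    0 ≤ PT θ r ρ ω := prod_nonneg fun _ _ => Tc_nonneg h0 h1 _ _ _ _ _

/-- **Moments near a centre.** -/
theorem EF_sp (h0 : 0 < θ) (h1 : Ang θ) (hP : IsLim (2 * Real.cos θ) P)
    (hg : ∀ᵐ ω ∂P, Good ω) (hA : (rowC θ r c).Adm κ R B n) (hr : ∀ i, (r i).Ok θ κ n)
    (hn : 10 < κ * n) {σ : Cfg} (hσ : Frz r σ) {p : ι × Fin 3} (hp : Sp (r p.1) p.2) {ρ : ℤ}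
    (hρ1 : 1 ≤ ρ) (hρ : (ρ : ℝ) ≤ κ * n / 16) {N : Cfg → ℕ} {s C : ℝ}
    (hN : ∀ ω ω' : Cfg, (∀ v ∈ Bq (ctr (r p.1) p.2) (4 * ρ), ω v = ω' v) → N ω = N ω')
    (h : ∀ η : Cfg, Good η → (∀ v ∈ (r p.1).I, η v = (r p.1).fr v) →
      Ex (2 * Real.cos θ) (Bq (ctr (r p.1) p.2) (4 * ρ) \ (r p.1).I) η
          (fun ω => Tc θ (r p.1).I (r p.1) p.2 ρ ω * Real.exp (s * (N ω : ℝ))) ≤
        C * Ex (2 * Real.cos θ) (Bq (ctr (r p.1) p.2) (4 * ρ) \ (r p.1).I) η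
          (Tc θ (r p.1).I (r p.1) p.2 ρ)) :
    EF P (uI r) σ (fun ω => PT θ r ρ ω * Real.exp (s * (N ω : ℝ))) ≤
      C * EF P (uI r) σ (PT θ r ρ) := by
  have h1_lt := h1.lt
  classical
  have hQ : Kit (2 * Real.cos θ) := h1.kit
  have hρκ : (ρ : ℝ) < κ * n := by
    have : (1 : ℝ) ≤ ρ := by exact_mod_cast hρ1
    linarith
  set D1 := Bq (ctr (r p.1) p.2) (4 * ρ) \ (r p.1).I with hD1
  set G : Cfg → ℝ := fun ω => ∏ q ∈ univ.erase p, Tc θ (uI r) (r q.1) q.2 ρ ω with hG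
  have hPT : ∀ ω, PT θ r ρ ω = G ω * Tc θ (r p.1).I (r p.1) p.2 ρ ω := by
    intro ω
    unfold PT
    rw [← Finset.prod_erase_mul _ _ (mem_univ p), Tc_adm hA hr (by linarith) hρκ]
  have hDK : Disjoint D1 (uI r) := by
    rw [Finset.disjoint_left]
    intro v hv hv'
    obtain ⟨hv1, hv2⟩ := Finset.mem_sdiff.1 hv
    refine hv2 (ctr_row hA hr (by linarith) hp hv' ?_)
    have h2 : (nm (v - ctr (r p.1) p.2) : ℝ) ≤ (4 * ρ : ℤ) := by exact_mod_cast nm_of_Bq hv1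
    push_cast at h2
    linarith
  have hGi : Ind D1 G := by
    refine ind_prod _ fun q hq => Tc_ind fun hq' v hv hv' => ?_
    have h2 := ctr_sep hA hr (by linarith) hp hq' (ne_of_mem_erase hq).symm
    have h3 := nm_of_Bq (mem_sdiff.1 hv).1
    have h4 := nm_of_Bq hv'
    have h5 := nm_sub_le (ctr (r p.1) p.2) v (ctr (r q.1) q.2)
    rw [nm_comm (ctr (r p.1) p.2) v] at h5
    have h6 : (nm (ctr (r p.1) p.2 - ctr (r q.1) q.2) : ℝ) ≤ ((4 * ρ + ρ : ℤ) : ℝ) := by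
      exact_mod_cast h5.trans (add_le_add h3 h4)
    push_cast at h6
    linarith
  have key := EF_lift hQ hP hg (K := uI r) (σ := σ) (D1 := D1) (G := G) (C := C)
    (F1 := fun ω => Tc θ (r p.1).I (r p.1) p.2 ρ ω * Real.exp (s * (N ω : ℝ)))
    (F2 := Tc θ (r p.1).I (r p.1) p.2 ρ) hDK
    (fun ω => prod_nonneg fun _ _ => Tc_nonneg h0 h1 _ _ _ _ _) hGi
    (LF.prod _ fun _ _ => ⟨_, Tc_loc _ _ _ _⟩)
    (LF.mul ⟨_, Tc_loc _ _ _ _⟩ (LF.comp (N := N) hN fun n : ℕ => Real.exp (s * n)))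
    ⟨_, Tc_loc _ _ _ _⟩ fun ζ hζ hk => h ζ hζ fun v hv => by
      rw [hk v (mem_uI.2 ⟨_, hv⟩)]
      exact hσ _ v hv
  have e1 : (fun ω => PT θ r ρ ω * Real.exp (s * (N ω : ℝ))) = fun ω =>
      G ω * (Tc θ (r p.1).I (r p.1) p.2 ρ ω * Real.exp (s * (N ω : ℝ))) := by
    funext ω
    rw [hPT, mul_assoc]
  have e2 : PT θ r ρ = fun ω => G ω * Tc θ (r p.1).I (r p.1) p.2 ρ ω := funext hPT
  rw [e1, e2]
  exact key

end Vale.Agent.P167.N.H945.Q
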