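import Vale.Agent.P167.N.Kit
import Vale.Agent.P167.N.H506.Q.Tr
import Vale.Agent.P167.N.H562.Q.MQ3
import Vale.Agent.P167.N.H945.Q.HLift
import Vale.Agent.P167.N.H945.Q.HZone
import Vale.Agent.P167.H945.Q.HFlow

/-! generated from Vale.Agent.P167.H945.Q.HFlow (q < 1 port) -/

set_option autoImplicit false

namespace Vale.Agent.P167.N.H945.Q

open Vale.Agent.P167.H945.Q Vale.Agent.P167.H945

open Finset MeasureTheory Filter

open Vale.Agent.P167.BR

open Vale.Agent.P167.FK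

open Vale.Agent.P167.FKA (Loc Ind Loc.ind Ex_mono Ex_congr)

open Vale.Agent.P167.H519 (IsLim)

open Vale.Agent.P167.H825 (dv epos)

open Vale.Agent.P167.H825.Q (Row)

open Vale.Agent.P167.H166 (bxx mem_bxx)

open Vale.Agent.P167.H680.T (rowC uI mem_uI)

open Vale.Agent.P167.H506.Q (EF fz LF EF_tr EF_le EF_lin)

open Vale.Agent.P167.H562.QM

open Vale.Agent.P167.H562.MAJ (Sm exists_cball)

variable {θ : ℝ}

theorem tan_nn (h0 : 0 < θ) (h1 : Ang θ) : 0 ≤ Real.tan θ :=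
  Real.tan_nonneg_of_nonneg_of_le_pi_div_two h0.le h1.lt.le

/-- **Moments of the masses of the small loops of the flow.** -/
theorem EF_flow (h0 : 0 < θ) (h1 : Ang θ) (hR : RSW (2 * Real.cos θ)) {P : Measure Cfg}
    (hP : IsLim (2 * Real.cos θ) P) (hg : ∀ᵐ ω ∂P, Good ω) {κ κ' R B : ℝ} (s : ℝ) (hκ : 0 < κ)
    (hκ' : 0 < κ') (hκκ : κ' ≤ κ / 100) (hs : 0 ≤ s) :
    ∃ C n₀ : ℝ, 0 < C ∧ 0 < n₀ ∧ ∀ n : ℕ, n₀ ≤ n → ∀ {ι : Type} [Fintype ι] {r : ι → Row}
      {c : Ed → ℝ}, (Function.support c).Finite → (rowC θ r c).Adm κ R B n →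
      (∀ i, (r i).Ok θ κ n) → ∀ (σ : Cfg) (ρ : ℤ), (ρ : ℝ) ≤ κ * n / 16 →
      ∀ t : ℝ, 0 ≤ t → t ≤ s →
      LF (fun ω => Real.exp (-(t * (Real.tan θ * Sm (dv c) (κ' * n) ω)))) ∧
      EF P (uI r) σ (fun ω => PT θ r ρ ω *
          Real.exp (-(t * (Real.tan θ * Sm (dv c) (κ' * n) ω)))) ≤
        C * EF P (uI r) σ (PT θ r ρ) := by
  have h1_lt := h1.lt
  classical
  have hQ := cos_ge h0 h1
  have ht0 := tan_nn h0 h1
  obtain ⟨ε, C, ρ0, hε, hC, hρ0, key⟩ := Vale.Agent.P167.N.H562.QM.YQ_mom hQ hR hP κ' (|R| + 1)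
    (|B| + 1) (s * Real.tan θ) 1 2 0 hκ' (by positivity) (by positivity) (mul_nonneg hs ht0) le_rfl
    (by norm_num)
  refine ⟨C, max ρ0 (10 / κ), hC, lt_of_lt_of_le (by linarith : 0 < ρ0) (le_max_left _ _),
    fun n hn ι _ r c hc hA hr σ ρ hρ t ht hts => ?_⟩
  have hn0 : ρ0 ≤ (n : ℝ) := (le_max_left _ _).trans hn
  have hn1 : (1 : ℝ) ≤ n := hρ0.trans hn0
  have hκn : 10 ≤ κ * n := by
    have h2 : 10 / κ ≤ (n : ℝ) := (le_max_right _ _).trans hn
    rw [div_le_iff₀ hκ] at h2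
    linarith
  have hκ'n : κ' * n ≤ κ * n / 100 := by
    have := mul_le_mul_of_nonneg_right hκκ (by linarith : (0 : ℝ) ≤ n)
    linarith
  obtain ⟨N, -, -, hN3⟩ := key n hn0 0 ∅ (fun v hv => absurd hv (Finset.notMem_empty v)) Fin.elim0
  -- the charges
  have hf0 : ∀ z, dv c z ≠ 0 → (nm z : ℝ) ≤ |R| * n + 1 ∧
      ∀ i, ∀ u ∈ (r i).I, κ * n - 1 ≤ (nm (z - u) : ℝ) := by
    intro z hz
    obtain ⟨e, he, hez⟩ := dv_near hz
    obtain ⟨h2, h3⟩ := adm_flow hA he
    have hez' : (nm (epos e - z) : ℝ) ≤ 1 := by exact_mod_cast hez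
    constructor
    · have h4 : (nm z : ℝ) ≤ nm (z - epos e) + nm (epos e) := by
        have := nm_sub_le z (epos e) 0
        rw [sub_zero, sub_zero] at this
        exact_mod_cast this
      rw [nm_comm z] at h4
      have h5 : R * n ≤ |R| * n := mul_le_mul_of_nonneg_right (le_abs_self R) (by linarith)
      linarith
    · intro i u hu
      have h4 := h3 i u hu
      have h5 : (nm (epos e - u) : ℝ) ≤ nm (epos e - z) + nm (z - u) := by
        exact_mod_cast nm_sub_le _ z u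
      linarith
  have hfs : ∀ z, dv c z ≠ 0 → (nm (z - (0 : ℤ × ℤ)) : ℝ) ≤ (|R| + 1) * n := fun z hz => by
    rw [sub_zero]
    have := (hf0 z hz).1
    nlinarith
  have hfb : ∀ z, |dv c z| ≤ (|B| + 1) / (n : ℝ) ^ 2 := fun z => by
    refine (hA.dle z).trans (div_le_div_of_nonneg_right ?_ (by positivity))
    linarith [le_abs_self B]
  obtain ⟨F, hF⟩ := exists_cball 0 ((|R| + 1) * n)
  have hF' : ∀ z, dv c z ≠ 0 → z ∈ F := fun z h => (hF z).2 (hfs z h)
  obtain ⟨A0, hA0⟩ := Sm_Loc hF' (κ' * n)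
  have hLF : LF (fun ω => Real.exp (-(t * (Real.tan θ * Sm (dv c) (κ' * n) ω)))) :=
    ⟨A0, fun ω ω' hw => by
      show Real.exp (-(t * (Real.tan θ * Sm (dv c) (κ' * n) ω))) =
        Real.exp (-(t * (Real.tan θ * Sm (dv c) (κ' * n) ω')))
      rw [hA0 ω ω' hw]⟩
  refine ⟨hLF, ?_⟩
  -- the range of the flow
  obtain ⟨R₁, hR₁⟩ : ∃ R₁ : ℤ, (|R| * n + 1 + 33 * κ' * n) < R₁ := exists_int_gt _
  have := Vale.Agent.P167.N.H506.Q.EF_tr hQ hP hg (uI r) σ ((PT_LF θ r ρ).mul hLF) (PT_LF θ r ρ) (a := 1) (b := C) R₁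
    fun D η hD _ hη hk => by
      rw [one_mul]
      have h2 := hN3 (D \ uI r) η hη (fun y a ha hz => by
          obtain ⟨u, hu, -⟩ := hz y (mem_bxx.2 (by
            rw [sub_self]
            have : nm (0 : ℤ × ℤ) = 0 := by simp [nm]
            omega))
          exact absurd hu (Finset.notMem_empty u)) (dv c) hfb hfs (fun z hz v hv => by
          obtain ⟨h2, h3⟩ := hf0 z hz
          refine Finset.mem_sdiff.2 ⟨hD (Bq_of_nm ?_), fun hv' => ?_⟩
          · have h4 : (nm (v - 0) : ℝ) ≤ nm (v - z) + nm (z - 0) := by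
              exact_mod_cast nm_sub_le v z 0
            rw [sub_zero z] at h4
            have h5 : (nm (v - 0) : ℝ) < R₁ := by linarith
            exact_mod_cast h5
          · obtain ⟨i, hi⟩ := mem_uI.1 hv'
            have h4 := h3 i v hi
            rw [nm_comm] at h4
            linarith) (PT θ r ρ) (fun ω => PT_nonneg h0 h1 r ρ ω) (fun ω ω' hw => by
          refine prod_congr rfl fun p _ => Tc_off fun hp v hv => hw v fun hv' => ?_
          rcases hv'.2 with ⟨u, hu, -⟩ | ⟨z, hz, hvz⟩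
          · exact absurd hu (Finset.notMem_empty u)
          · have h2 := (hf0 z hz).2 p.1 _ (ctr_mem (hr p.1) (by linarith) hp)
            have h3 : (nm (v - ctr (r p.1) p.2) : ℝ) ≤ ρ := by exact_mod_cast nm_of_Bq hv
            have h4 : (nm (z - ctr (r p.1) p.2) : ℝ) ≤ nm (z - v) + nm (v - ctr (r p.1) p.2) := by
              exact_mod_cast nm_sub_le z v _
            rw [nm_comm z v] at h4
            linarith) 1 (t * Real.tan θ) zero_le_one one_le_two (mul_nonneg ht ht0)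
              (mul_le_mul_of_nonneg_right hts ht0)
      rw [fsum_dv hc, mul_zero, zero_mul, neg_zero, Real.exp_zero, mul_one] at h2
      refine le_trans (le_of_eq ?_) h2
      refine Ex_congr fun S _ => ?_
      congr 1
      unfold YQ
      rw [one_pow, one_mul, ← Real.exp_mul]
      congr 1
      ring
  rwa [one_mul] at this

end Vale.Agent.P167.N.H945.Q
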