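import Vale.Agent.P167.N.Kit
import Vale.Agent.P167.N.H945.Q.HFlow
import Vale.Agent.P167.N.H945.Q.HLift
import Vale.Agent.P167.N.H945.Q.HZone
import Vale.Agent.P167.H945.Q.HMaj

/-! generated from Vale.Agent.P167.H945.Q.HMaj (q < 1 port) -/

set_option autoImplicit false

namespace Vale.Agent.P167.N.H945.Q

open Vale.Agent.P167.H945.Q Vale.Agent.P167.H945

open Finset MeasureTheory Filter

open Vale.Agent.P167.BR

open Vale.Agent.P167.FK

open Vale.Agent.P167.FKA (Loc Ind Loc.ind Ex_mono Ex_congr)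

open Vale.Agent.P167.H519 (IsLim)

open Vale.Agent.P167.H825 (dv epos)

open Vale.Agent.P167.H825.Q (Row)

open Vale.Agent.P167.H680.T (rowC uI mem_uI)

open Vale.Agent.P167.H506.Q (EF fz LF EF_tr EF_le EF_lin EF_nonneg)

open Vale.Agent.P167.H562.QM (MajA)

open Vale.Agent.P167.H562.MAJ (Sm)

section ef

variable {K : Finset (ℤ × ℤ)} {σ : Cfg} {P : Measure Cfg}

end ef

section comb

variable {K : Finset (ℤ × ℤ)} {σ : Cfg} {P : Measure Cfg} [IsFiniteMeasure P] {β : Type*}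

end comb

variable {θ : ℝ}

/-- **Moments of the majorant.** -/
theorem EF_maj (h0 : 0 < θ) (h1 : Ang θ) (hR : RSW (2 * Real.cos θ)) (hb : P1b θ)
    {P : Measure Cfg} (hP : IsLim (2 * Real.cos θ) P) (hg : ∀ᵐ ω ∂P, Good ω) {κ κ' R B A : ℝ}
    (M : ℕ) (hκ : 0 < κ) (hκ' : 0 < κ') (hκκ : κ' ≤ κ / 100) (hA1 : 1 ≤ A) :
    ∃ C : ℝ, 0 < C ∧ ∀ᶠ n : ℕ in atTop, ∀ (ι : Type) [Fintype ι] (r : ι → Row) (c : Ed → ℝ),
      (Function.support c).Finite → Fintype.card ι ≤ M → (rowC θ r c).Adm κ R B n →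
      (∀ i, (r i).Ok θ κ n) → ∀ σ : Cfg, Frz r σ → ∃ (N : Cfg → ℕ) (Z : Finset (ℤ × ℤ)),
        LF (fun ω => A ^ N ω * Real.exp (-(Real.tan θ * Sm (dv c) (κ' * n) ω))) ∧
        (∀ v : ℤ × ℤ, (nm v : ℝ) ≤ (R + 1) * n → v ∈ Z) ∧
        (∀ ω, Good ω → MajA Z (κ' * n) ω (N ω)) ∧
        EF P (uI r) σ (fun ω => PT θ r ⌊κ * n / 16⌋ ω *
            (A ^ N ω * Real.exp (-(Real.tan θ * Sm (dv c) (κ' * n) ω)))) ≤
          C * EF P (uI r) σ (PT θ r ⌊κ * n / 16⌋) := by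
  have h1_lt := h1.lt
  classical
  have hPp : IsProbabilityMeasure P := hP.1
  -- the grid
  obtain ⟨Gn, hGn⟩ : ∃ Gn : ℕ, 200 * (|R| + 4) / κ + 2 ≤ (Gn : ℝ) := exists_nat_ge _
  obtain ⟨grid, hgrid⟩ : ∃ grid : Finset (ℤ × ℤ), grid =
    Finset.Icc (-(Gn : ℤ)) Gn ×ˢ Finset.Icc (-(Gn : ℤ)) Gn := ⟨_, rfl⟩
  obtain ⟨m₀, hm₀⟩ : ∃ m₀ : ℕ, m₀ = grid.card + 3 * M + 1 := ⟨_, rfl⟩
  obtain ⟨C1, n1, hC1, hn1, hzone⟩ := EF_zone h0 h1 hR hP hg (m₀ * Real.log A) hκ hκ' hκκ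
  obtain ⟨C2, n2, hC2, hn2, hflow⟩ := EF_flow (R := R) (B := B) h0 h1 hR hP hg (m₀ : ℝ) hκ hκ' hκκ
    (by positivity)
  obtain ⟨C3, ρ3, hC3, hsp⟩ := hb (κ' * 16 / κ) (m₀ * Real.log A) (by positivity)
  have hm1 : (0 : ℝ) < max (max C1 C3) 1 := lt_of_lt_of_le one_pos (le_max_right _ _)
  refine ⟨m₀ * (max (max C1 C3) 1 + C2), by rw [hm₀]; positivity, ?_⟩
  have hlim : Tendsto (fun n : ℕ => κ * (n : ℝ)) atTop atTop :=
    tendsto_natCast_atTop_atTop.const_mul_atTop hκ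
  have hlim' : Tendsto (fun n : ℕ => (n : ℝ)) atTop atTop := tendsto_natCast_atTop_atTop
  filter_upwards [hlim.eventually_ge_atTop 1000, hlim.eventually_ge_atTop (16 * (ρ3 + 1)),
    hlim'.eventually_ge_atTop n1, hlim'.eventually_ge_atTop n2, hlim'.eventually_ge_atTop 1]
    with n hn hnρ hnn1 hnn2 hnn
  intro ι _ r c hc hM hA hr σ hσ
  obtain ⟨ρ, hρ⟩ : ∃ ρ : ℤ, ρ = ⌊κ * n / 16⌋ := ⟨_, rfl⟩
  obtain ⟨h, hh⟩ : ∃ h : ℤ, h = ⌊κ * n / 100⌋ := ⟨_, rfl⟩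
  rw [← hρ]
  have hρ1 : (ρ : ℝ) ≤ κ * n / 16 := by rw [hρ]; exact Int.floor_le _
  have hρ2 : κ * n / 16 - 1 < ρ := by rw [hρ]; exact Int.sub_one_lt_floor _
  have hh1 : (h : ℝ) ≤ κ * n / 100 := by rw [hh]; exact Int.floor_le _
  have hh2 : κ * n / 100 - 1 < h := by rw [hh]; exact Int.sub_one_lt_floor _
  have hρpos : 1 ≤ ρ := by
    have : (0 : ℝ) < ρ := by linarith
    have : 0 < ρ := by exact_mod_cast this
    omega
  have hhpos : 1 ≤ h := by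
    have : (0 : ℝ) < h := by linarith
    have : 0 < h := by exact_mod_cast this
    omega
  have hκ'n : κ' * n ≤ κ * n / 100 := by
    have := mul_le_mul_of_nonneg_right hκκ (by linarith : (0 : ℝ) ≤ n)
    linarith
  have hκ'n0 : 0 ≤ κ' * n := by positivity
  obtain ⟨E, hE⟩ : ∃ E, E = EF P (uI r) σ (PT θ r ρ) := ⟨_, rfl⟩
  have hE0 : 0 ≤ E := by rw [hE]; exact EF_nonneg fun ω => PT_nonneg h0 h1 r ρ ω
  rw [← hE]
  -- the zones
  have hz : ∀ j : (ℤ × ℤ) ⊕ (ι × Fin 3), ∃ N : Cfg → ℕ,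
      (∃ U : Finset (ℤ × ℤ), ∀ ω ω' : Cfg, (∀ v ∈ U, ω v = ω' v) → N ω = N ω') ∧
      (∀ ω, Good ω → MajA (AJ r h ρ (fun g => ∀ p : ι × Fin 3, Sp (r p.1) p.2 →
        (ρ + h + κ' * n : ℝ) < (nm (ctr (r p.1) p.2 - (h * g.1, h * g.2)) : ℝ)) j)
        (κ' * n) ω (N ω)) ∧
      EF P (uI r) σ (fun ω => PT θ r ρ ω * Real.exp (m₀ * Real.log A * (N ω : ℝ))) ≤
        max (max C1 C3) 1 * E := by
    have hzero : EF P (uI r) σ (fun ω => PT θ r ρ ω *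
        Real.exp (m₀ * Real.log A * (((fun _ => 0 : Cfg → ℕ) ω : ℕ) : ℝ))) ≤
        max (max C1 C3) 1 * E := by
      simp only [Nat.cast_zero, mul_zero, Real.exp_zero, mul_one]
      rw [← hE]
      calc E = 1 * E := (one_mul _).symm
        _ ≤ _ := mul_le_mul_of_nonneg_right (le_max_right _ _) hE0
    rintro (g | p)
    · by_cases hg' : ∀ p : ι × Fin 3, Sp (r p.1) p.2 →
        (ρ + h + κ' * n : ℝ) < (nm (ctr (r p.1) p.2 - (h * g.1, h * g.2)) : ℝ)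
      · obtain ⟨N, hN1, hN2, hN3⟩ := hzone n hnn1 hA hr hσ (h * g.1, h * g.2) h ρ hh1 hhpos
          hρpos hg'
        rw [← hE] at hN3
        refine ⟨N, hN1, fun ω _ => ?_, hN3.trans (mul_le_mul_of_nonneg_right
          ((le_max_left _ _).trans (le_max_left _ _)) hE0)⟩
        unfold AJ
        rw [Sum.elim_inl, if_pos hg']
        exact hN2 ω
      · refine ⟨fun _ => 0, ⟨∅, fun _ _ _ => rfl⟩, fun ω _ => ?_, hzero⟩
        unfold AJ
        rw [Sum.elim_inl, if_neg hg']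
        exact majA_empty _
    · by_cases hp' : Sp (r p.1) p.2
      · have h8 : 8 * ρ ≤ ((⌊κ * n⌋₊ : ℕ) : ℤ) := by
          have h9 : κ * n - 1 < (⌊κ * n⌋₊ : ℕ) := by
            have := Nat.lt_floor_add_one (κ * n)
            linarith
          have h10 : ((8 * ρ : ℤ) : ℝ) < ((⌊κ * n⌋₊ : ℕ) : ℝ) := by
            push_cast
            linarith
          have h11 : (8 * ρ : ℤ) < ((⌊κ * n⌋₊ : ℕ) : ℤ) := by exact_mod_cast h10
          exact h11.le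
        obtain ⟨N, hN1, hN2, hN3⟩ := hsp (r p.1) ⌊κ * n⌋₊ p.2 ρ
          (ok_one (hr p.1) (by linarith)) hp' (by linarith) h8
        have hN4 := EF_sp h0 h1 hP hg hA hr (by linarith) hσ hp' hρpos hρ1 hN1 hN3
        rw [← hE] at hN4
        refine ⟨N, ⟨_, hN1⟩, fun ω hω => ?_, hN4.trans (mul_le_mul_of_nonneg_right
          ((le_max_right _ _).trans (le_max_left _ _)) hE0)⟩
        unfold AJ
        rw [Sum.elim_inr, if_pos hp']
        refine MajA.mono (hN2 ω hω) ?_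
        calc κ' * 16 / κ * ρ ≤ κ' * 16 / κ * (κ * n / 16) :=
              mul_le_mul_of_nonneg_left hρ1 (by positivity)
          _ = κ' * n := by field_simp
      · refine ⟨fun _ => 0, ⟨∅, fun _ _ _ => rfl⟩, fun ω _ => ?_, hzero⟩
        unfold AJ
        rw [Sum.elim_inr, if_neg hp']
        exact majA_empty _
  choose N hN1 hN2 hN3 using hz
  -- the index set
  obtain ⟨J, hJ⟩ : ∃ J : Finset ((ℤ × ℤ) ⊕ (ι × Fin 3)), J = grid.disjSum univ := ⟨_, rfl⟩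
  have hJc : J.card + 1 ≤ m₀ := by
    rw [hJ, Finset.card_disjSum, Finset.card_univ, Fintype.card_prod, Fintype.card_fin, hm₀]
    omega
  have hJc' : ((J.card + 1 : ℕ) : ℝ) ≤ m₀ := by exact_mod_cast hJc
  have hfl : ∀ t : ℝ, 0 ≤ t → t ≤ (m₀ : ℝ) →
      LF (fun ω => Real.exp (-(t * (Real.tan θ * Sm (dv c) (κ' * n) ω)))) ∧
      EF P (uI r) σ (fun ω => PT θ r ρ ω *
          Real.exp (-(t * (Real.tan θ * Sm (dv c) (κ' * n) ω)))) ≤ C2 * E := fun t ht ht' => by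
    rw [hE]
    exact hflow n hnn2 hc hA hr σ ρ hρ1 t ht ht'
  obtain ⟨k1, k2⟩ := EF_comb hg hA1 (PT_LF θ r ρ) (fun ω => PT_nonneg h0 h1 r ρ ω) J N hN1
    (z := fun ω => Real.tan θ * Sm (dv c) (κ' * n) ω)
    (fun t ht ht' => (hfl t ht (ht'.trans hJc')).1) hJc hm1.le hC2.le hE0 hN3
    (hfl _ (by positivity) hJc').2
  refine ⟨fun ω => ∑ j ∈ J, N j ω, Bq 0 (h * Gn), k1, fun v hv => ?_, fun ω hω => ?_, k2⟩
  · refine Bq_of_nm ?_
    have h2 : (κ * n / 200) * (200 * (|R| + 4) / κ) = (|R| + 4) * n := by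
      field_simp
    have h3 : (κ * n / 200 : ℝ) ≤ h := by linarith
    have h4 : (|R| + 4) * n ≤ h * (200 * (|R| + 4) / κ) := by
      rw [← h2]
      exact mul_le_mul_of_nonneg_right h3 (by positivity)
    have h5 : (h : ℝ) * (200 * (|R| + 4) / κ) ≤ h * Gn :=
      mul_le_mul_of_nonneg_left (by linarith) (by linarith)
    have h6 : (R + 1) * n ≤ (|R| + 1) * n :=
      mul_le_mul_of_nonneg_right (by linarith [le_abs_self R]) (by linarith)
    have h7 : (nm (v - 0) : ℝ) < ((h * Gn : ℤ) : ℝ) := by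
      rw [sub_zero]
      push_cast
      nlinarith
    exact_mod_cast h7
  · refine MajA.cover (fun v hv => ?_) fun j _ => hN2 j ω hω
    rw [hJ, hgrid]
    exact AJ_cover (by omega) (by linarith) hv

end Vale.Agent.P167.N.H945.Q
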